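import Vale.Agent.P151.Growth.Entropy

/-!
# The covariance with a decision tree
-/

namespace Vale.Agent.P151.Root

open Finset Vale.Agent.P165 Vale.Agent.P151.Growth

variable {α : Type}

/-- A decision tree on the coordinates with values at the leaves. -/
inductive Tree (α : Type) : Type
  | leaf (v : ℝ) : Tree α
  | node (e : α) (yes no : Tree α) : Tree α

variable [DecidableEq α]

/-- The value of a tree. -/
def Tree.val : Tree α → Finset α → ℝ
  | .leaf v, _ => v
  | .node e t u, η => if e ∈ η then t.val η else u.val η

/-- The chance that a coordinate is looked at. -/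
def Tree.rev (p : ℝ) : Tree α → α → ℝ
  | .leaf _, _ => 0
  | .node e t u, x => if x = e then 1 else p * t.rev p x + (1 - p) * u.rev p x

/-- Every coordinate is looked at once, and the values lie in the unit interval. -/
def Tree.Ok : Tree α → Finset α → Prop
  | .leaf v, _ => 0 ≤ v ∧ v ≤ 1
  | .node e t u, E => e ∈ E ∧ t.Ok (E.erase e) ∧ u.Ok (E.erase e)

theorem Tree.val_mem : ∀ {T : Tree α} {E : Finset α}, T.Ok E → ∀ η, 0 ≤ T.val η ∧ T.val η ≤ 1
  | .leaf v, _, h, _ => h
  | .node e t u, _, h, η => by
      rw [Tree.val]
      split
      exacts [Tree.val_mem h.2.1 η, Tree.val_mem h.2.2 η]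

theorem Tree.val_insert : ∀ {T : Tree α} {E : Finset α}, T.Ok E → ∀ {e : α}, e ∉ E →
    ∀ η, T.val (insert e η) = T.val η
  | .leaf _, _, _, _, _, _ => rfl
  | .node x t u, _, h, e, he, η => by
      have hne : x ≠ e := fun hx => he (hx ▸ h.1)
      simp only [Tree.val, mem_insert, hne, false_or,
        Tree.val_insert h.2.1 (fun h' => he (erase_subset _ _ h')),
        Tree.val_insert h.2.2 (fun h' => he (erase_subset _ _ h'))]

theorem Tree.rev_nonneg {p : ℝ} (h0 : 0 ≤ p) (h1 : p ≤ 1) (T : Tree α) (x : α) : 0 ≤ T.rev p x := by
  induction T with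
  | leaf v => exact le_rfl
  | node e t u iht ihu =>
    rw [Tree.rev]
    split
    · exact zero_le_one
    · have := sub_nonneg.2 h1; positivity

/-- The covariance of a tree with any function is bounded by revealments and influences. -/
theorem cov_le {p : ℝ} (h0 : 0 ≤ p) (h1 : p ≤ 1) :
    ∀ (T : Tree α) (E : Finset α), T.Ok E → ∀ F : Finset α → ℝ,
      |avg E p (fun η => T.val η * F η) - avg E p T.val * avg E p F|
        ≤ p * (1 - p) * ∑ x ∈ E, T.rev p x * avg E p (fun η => |dlt x F η|)
  | .leaf v, E, _, F => by
      simp [Tree.val, Tree.rev, avg_mul, avg_const]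
  | .node e t u, E, h, F => by
      obtain ⟨he, ht, hu⟩ := h
      set E' := E.erase e with hE'
      have heE : e ∉ E' := notMem_erase e E
      have hv1 : ∀ η, η ⊆ E' → (Tree.node e t u).val (insert e η) = t.val η := fun η hη => by
        rw [Tree.val, if_pos (mem_insert_self e η), Tree.val_insert ht heE]
      have hv0 : ∀ η, η ⊆ E' → (Tree.node e t u).val η = u.val η := fun η hη => by
        rw [Tree.val, if_neg fun h' => heE (hη h')]
      set F' : Finset α → ℝ := fun η => p * F (insert e η) + (1 - p) * F η with hF'
      set D : Finset α → ℝ := fun η => F (insert e η) - F η with hD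
      have e1 : avg E p (fun η => (Tree.node e t u).val η * F η)
          = p * avg E' p (fun η => t.val η * F' η) + (1 - p) * avg E' p (fun η => u.val η * F' η)
            + p * (1 - p) * avg E' p (fun η => (t.val η - u.val η) * D η) := by
        rw [avg_edge he, ← hE', avg_congr E' p fun η hη => by rw [hv1 η hη],
          avg_congr E' p (f := fun η => (Tree.node e t u).val η * F η) fun η hη => by rw [hv0 η hη]]
        simp only [← avg_mul, ← avg_add]
        exact avg_congr _ _ fun η _ => by simp only [hF', hD]; ring
      have e2 : avg E p (Tree.node e t u).val = p * avg E' p t.val + (1 - p) * avg E' p u.val := by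
        rw [avg_edge he, ← hE', avg_congr E' p hv1, avg_congr E' p hv0]
      have e3 : avg E p F = avg E' p F' := by
        rw [avg_edge he, ← hE', hF', avg_add, avg_mul, avg_mul]
      have hq := sub_nonneg.2 h1
      have hsmall : |avg E' p (fun η => (t.val η - u.val η) * D η)|
          ≤ avg E p (fun η => |dlt e F η|) := by
        have hs : avg E p (fun η => |dlt e F η|) = avg E' p (fun η => |D η|) := by
          have := avg_dlt_self heE p (fun x => |x|) F
          rwa [hE', insert_erase he] at this
        rw [hs, abs_le, ← neg_one_mul, ← avg_mul]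
        have hb : ∀ η, |(t.val η - u.val η) * D η| ≤ |D η| := fun η => by
          rw [abs_mul]
          refine mul_le_of_le_one_left (abs_nonneg _) ?_
          have := Tree.val_mem ht η
          have := Tree.val_mem hu η
          rw [abs_le]; constructor <;> linarith
        exact ⟨avg_mono _ h0 h1 fun η _ => by linarith [(abs_le.1 (hb η)).1],
          avg_mono _ h0 h1 fun η _ => (abs_le.1 (hb η)).2⟩
      have hI : ∀ x ∈ E', avg E' p (fun η => |dlt x F' η|) ≤ avg E p (fun η => |dlt x F η|) := by
        intro x hx
        have := avg_dlt_insert heE hx p (fun y => |y|) F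
        rw [hE', insert_erase he, ← hE'] at this
        rw [this, ← avg_mul, ← avg_mul, ← avg_add]
        refine avg_mono _ h0 h1 fun η _ => ?_
        have hd : dlt x F' η = p * dlt x (fun ξ => F (insert e ξ)) η + (1 - p) * dlt x F η := by
          simp only [dlt, hF']; ring
        rw [hd]
        refine (abs_add_le _ _).trans (le_of_eq ?_)
        rw [abs_mul, abs_mul, abs_of_nonneg h0, abs_of_nonneg hq]
      have it := cov_le h0 h1 t E' ht F'
      have iu := cov_le h0 h1 u E' hu F'
      have bnd : ∀ T : Tree α, ∑ x ∈ E', T.rev p x * avg E' p (fun η => |dlt x F' η|)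
          ≤ ∑ x ∈ E', T.rev p x * avg E p (fun η => |dlt x F η|) := fun T =>
        sum_le_sum fun x hx => mul_le_mul_of_nonneg_left (hI x hx) (T.rev_nonneg h0 h1 x)
      have esum : ∑ x ∈ E, (Tree.node e t u).rev p x * avg E p (fun η => |dlt x F η|)
          = avg E p (fun η => |dlt e F η|) + p * ∑ x ∈ E', t.rev p x * avg E p (fun η => |dlt x F η|)
            + (1 - p) * ∑ x ∈ E', u.rev p x * avg E p (fun η => |dlt x F η|) := by
        rw [← add_sum_erase _ _ he, ← hE', mul_sum, mul_sum, add_assoc, ← sum_add_distrib]
        congr 1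
        · simp [Tree.rev]
        · refine sum_congr rfl fun x hx => ?_
          rw [Tree.rev, if_neg (ne_of_mem_erase hx)]; ring
      rw [esum, e1, e2, e3, show p * avg E' p (fun η => t.val η * F' η)
          + (1 - p) * avg E' p (fun η => u.val η * F' η)
          + p * (1 - p) * avg E' p (fun η => (t.val η - u.val η) * D η)
          - (p * avg E' p t.val + (1 - p) * avg E' p u.val) * avg E' p F'
          = p * (avg E' p (fun η => t.val η * F' η) - avg E' p t.val * avg E' p F')
            + (1 - p) * (avg E' p (fun η => u.val η * F' η) - avg E' p u.val * avg E' p F')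
            + p * (1 - p) * avg E' p (fun η => (t.val η - u.val η) * D η) by ring]
      refine (abs_add_three _ _ _).trans ?_
      simp only [abs_mul, abs_of_nonneg h0, abs_of_nonneg hq]
      have a1 := mul_le_mul_of_nonneg_left (it.trans (mul_le_mul_of_nonneg_left (bnd t)
        (mul_nonneg h0 hq))) h0
      have a2 := mul_le_mul_of_nonneg_left (iu.trans (mul_le_mul_of_nonneg_left (bnd u)
        (mul_nonneg h0 hq))) hq
      have a3 := mul_le_mul_of_nonneg_left hsmall (mul_nonneg h0 hq)
      linarith

end Vale.Agent.P151.Root
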