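import Mathlib

/-!
# Choosing scales

`Gl q X G` stands for a gluing bound with gain `G` from the scale `X` on, valid above the
parameter indexed by `q`.  Every large `L` offers a scale `D ≥ L` and a cost `a`; the gain can
then be made any multiple of the scale.
-/

namespace Vale.Agent.P151.Root

theorem exists_large_gain {Gl : ℕ → ℕ → ℝ → Prop} {C c g₀ : ℝ} {L₀ q₀ X₀ : ℕ}
    (hC : 1 ≤ C) (hc : 0 < c) (hg : 0 < g₀) (hstart : Gl q₀ X₀ g₀)
    (hstep : ∀ L ≥ L₀, ∃ D : ℕ, L ≤ D ∧ ∃ a : ℝ, 0 < a ∧ a ≤ C * L ∧ a * L ≤ C * D ∧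
      ∀ q X G, Gl q X G → g₀ ≤ G → q ≤ L → X ≤ D → Gl (L + 1) (64 * D) (c * D * G / a))
    (K : ℝ) (N : ℕ) :
    ∃ q X G, Gl q X G ∧ g₀ ≤ G ∧ q ≤ X ∧ N ≤ X ∧ K * X ≤ G := by
  choose! Df hDL af ha0 haC haD hGl using hstep
  set K' : ℝ := 64 * max K 1 / c with hK'
  have hK'0 : 0 < K' := by
    have := lt_max_of_lt_right (b := K) one_pos
    positivity
  have hC0 : 0 < C := one_pos.trans_le hC
  set γ := c / (64 * C) with hγ
  have hγ0 : 0 < γ := by positivity
  obtain ⟨L₁, hL₁⟩ := exists_nat_ge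
    (max (max (2 * C / c) (2 / (γ * (c / C)))) ((L₀ + q₀ + X₀ + N + 1 : ℕ) : ℝ))
  have hB2 : 2 ≤ c / C * L₁ := by
    have h := (le_max_left _ _).trans ((le_max_left _ _).trans hL₁)
    rw [div_le_iff₀ hc] at h
    rw [div_mul_eq_mul_div, le_div_iff₀ hC0]
    linarith
  have hBγ : 2 ≤ γ * (c / C * L₁) := by
    have h := (le_max_right _ _).trans ((le_max_left _ _).trans hL₁)
    rw [div_le_iff₀ (by positivity)] at h
    linarith
  have hL₁n : L₀ + q₀ + X₀ + N + 1 ≤ L₁ := by exact_mod_cast (le_max_right _ _).trans hL₁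
  -- the chain of scales and of gains
  obtain ⟨Ls, hLs, hLss⟩ : ∃ Ls : ℕ → ℕ, Ls 0 = L₁ ∧ ∀ i, Ls (i + 1) = 64 * Df (Ls i) :=
    ⟨Nat.rec L₁ fun _ L => 64 * Df L, rfl, fun _ => rfl⟩
  obtain ⟨Gs, hGs, hGss⟩ : ∃ Gs : ℕ → ℝ, Gs 0 = g₀ ∧
      ∀ i, Gs (i + 1) = c * Df (Ls i) * Gs i / af (Ls i) :=
    ⟨Nat.rec g₀ fun j G => c * Df (Ls j) * G / af (Ls j), rfl, fun _ => rfl⟩
  have hLs0 : ∀ i, L₁ ≤ Ls i := by
    intro i
    induction i with
    | zero => rw [hLs]
    | succ i ih =>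
      have := hDL (Ls i) (by omega)
      rw [hLss]
      omega
  have hfac : ∀ L : ℕ, L₀ ≤ L → ∀ G : ℝ, 0 ≤ G → c / C * L * G ≤ c * Df L * G / af L := by
    intro L hL G hG
    rw [le_div_iff₀ (ha0 L hL), div_mul_eq_mul_div, div_mul_eq_mul_div, div_mul_eq_mul_div,
      div_le_iff₀ hC0]
    nlinarith [mul_le_mul_of_nonneg_left (haD L hL) (mul_nonneg hc.le hG)]
  have hG : ∀ i, g₀ * 2 ^ i ≤ Gs i ∧ g₀ * (c / C * L₁) ^ i ≤ Gs i := by
    intro i
    induction i with
    | zero => simp [hGs]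
    | succ i ih =>
      have h0 : 0 ≤ Gs i := le_trans (by positivity) ih.1
      have h : c / C * L₁ * Gs i ≤ Gs (i + 1) := by
        rw [hGss]
        refine le_trans ?_ (hfac (Ls i) (by have := hLs0 i; omega) (Gs i) h0)
        refine mul_le_mul_of_nonneg_right (mul_le_mul_of_nonneg_left ?_ (by positivity)) h0
        exact_mod_cast hLs0 i
      constructor
      · refine le_trans ?_ h
        rw [pow_succ]
        calc g₀ * (2 ^ i * 2) = 2 * (g₀ * 2 ^ i) := by ring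
          _ ≤ c / C * L₁ * Gs i := mul_le_mul hB2 ih.1 (by positivity) (by positivity)
      · refine le_trans ?_ h
        rw [pow_succ]
        calc g₀ * ((c / C * L₁) ^ i * (c / C * L₁)) = c / C * L₁ * (g₀ * (c / C * L₁) ^ i) := by ring
          _ ≤ _ := mul_le_mul_of_nonneg_left ih.2 (by positivity)
  have hG0 : ∀ i, g₀ ≤ Gs i := fun i =>
    (le_mul_of_one_le_right hg.le (one_le_pow₀ one_le_two)).trans (hG i).1
  have hR : ∀ i, γ ^ i * (g₀ / L₁) ≤ Gs i / Ls i := by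
    intro i
    induction i with
    | zero => simp [hGs, hLs]
    | succ i ih =>
      have hi : L₀ ≤ Ls i := by have := hLs0 i; omega
      have hLi : (0 : ℝ) < Ls i := by
        have := hLs0 i
        exact_mod_cast (show 0 < Ls i by omega)
      have hDi : (0 : ℝ) < Df (Ls i) :=
        hLi.trans_le (by exact_mod_cast hDL (Ls i) hi)
      have h := mul_le_mul_of_nonneg_left ih hγ0.le
      rw [← mul_assoc, ← pow_succ'] at h
      refine h.trans ?_
      rw [hGss, hLss]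
      push_cast
      rw [show c * (Df (Ls i) : ℝ) * Gs i / af (Ls i) / (64 * Df (Ls i)) = c / 64 * (Gs i / af (Ls i)) by
        field_simp]
      rw [hγ, show c / (64 * C) * (Gs i / Ls i) = c / 64 * (Gs i / (C * Ls i)) by ring]
      refine mul_le_mul_of_nonneg_left ?_ (by positivity)
      exact div_le_div_of_nonneg_left (hg.le.trans (hG0 i)) (ha0 _ hi) (haC _ hi)
  have hst : ∀ i, ∃ q X, Gl q X (Gs i) ∧ q ≤ Ls i ∧ X ≤ Ls i := by
    intro i
    induction i with
    | zero => exact ⟨q₀, X₀, hGs ▸ hstart, by omega, by omega⟩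
    | succ i ih =>
      obtain ⟨q, X, h, hq, hX⟩ := ih
      have hi : L₀ ≤ Ls i := by have := hLs0 i; omega
      refine ⟨Ls i + 1, 64 * Df (Ls i), ?_, ?_, (hLss i).ge⟩
      · rw [hGss]
        exact hGl _ hi q X _ h (hG0 i) hq (hX.trans (hDL _ hi))
      rw [hLss]
      have := hDL (Ls i) hi
      have := hLs0 i
      omega
  -- a step with a cheap enough scale already wins
  have hwin : ∀ q X G L, Gl q X G → g₀ ≤ G → q ≤ L → X ≤ Df L → L₁ ≤ L → K' * af L ≤ G →
      ∃ q X G, Gl q X G ∧ g₀ ≤ G ∧ q ≤ X ∧ N ≤ X ∧ K * X ≤ G := by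
    intro q X G L h hg' hq hX hL hwin
    have hL0 : L₀ ≤ L := by omega
    have hD := hDL L hL0
    refine ⟨L + 1, 64 * Df L, _, hGl L hL0 q X G h hg' hq hX, ?_, by omega, by omega, ?_⟩
    · refine hg'.trans (le_trans ?_ (hfac L hL0 G (hg.le.trans hg')))
      refine le_mul_of_one_le_left (hg.le.trans hg') (le_trans (by linarith) (hB2.trans ?_))
      gcongr
    · rw [le_div_iff₀ (ha0 L hL0)]
      push_cast
      have h1 := mul_le_mul_of_nonneg_left hwin (mul_nonneg hc.le (Nat.cast_nonneg (Df L)))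
      rw [hK', show c * (Df L : ℝ) * (64 * max K 1 / c * af L) = 64 * Df L * max K 1 * af L by
        field_simp] at h1
      refine le_trans ?_ h1
      rw [show K * (64 * (Df L : ℝ)) = 64 * Df L * K by ring]
      exact mul_le_mul_of_nonneg_right
        (mul_le_mul_of_nonneg_left (le_max_left _ _) (by positivity)) (ha0 L hL0).le
  -- a scale whose gain is large
  set T₁ := max (4 * C * K' * C / c) (2 * K' ^ 2 * C ^ 3 * 4096 / c) with hT₁
  obtain ⟨i, hi⟩ := pow_unbounded_of_one_lt (max (T₁ / g₀) (T₁ / (g₀ * (g₀ / L₁) * (64 * γ)))) one_lt_two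
  have hL₁0 : (0 : ℝ) < L₁ := by exact_mod_cast (show 0 < L₁ by omega)
  have hbig1 : T₁ ≤ Gs i := by
    refine le_trans ?_ (hG i).1
    have := (le_max_left _ _).trans hi.le
    rwa [div_le_iff₀ hg, mul_comm] at this
  have hLi : L₁ ≤ Ls i := hLs0 i
  have hi0 : L₀ ≤ Ls i := by omega
  have hLi0 : (0 : ℝ) < Ls i := by exact_mod_cast (show 0 < Ls i by omega)
  have hbig2 : T₁ ≤ Gs i * Gs (i + 1) / Df (Ls i) := by
    have h := (le_max_right _ _).trans hi.le
    rw [div_le_iff₀ (by positivity)] at h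
    refine h.trans ?_
    have h3 := pow_le_pow_left₀ zero_le_two hBγ i
    rw [mul_pow] at h3
    have h5 := hR (i + 1)
    rw [show (Ls (i + 1) : ℝ) = 64 * (Df (Ls i) : ℝ) by rw [hLss]; push_cast; ring,
      le_div_iff₀ (mul_pos (by norm_num) (hLi0.trans_le (by exact_mod_cast hDL _ hi0)))] at h5
    rw [mul_div_assoc]
    calc (2 : ℝ) ^ i * (g₀ * (g₀ / L₁) * (64 * γ))
        ≤ γ ^ i * (c / C * L₁) ^ i * (g₀ * (g₀ / L₁) * (64 * γ)) :=
          mul_le_mul_of_nonneg_right h3 (by positivity)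
      _ = g₀ * (c / C * L₁) ^ i * (γ ^ (i + 1) * (g₀ / L₁) * 64) := by ring
      _ ≤ _ := by
        refine mul_le_mul (hG i).2 ?_ (by positivity) (hg.le.trans (hG0 i))
        rw [le_div_iff₀ (hLi0.trans_le (by exact_mod_cast hDL _ hi0))]
        linarith
  have hGi0 : 0 < Gs i := hg.trans_le (hG0 i)
  set G₁ := Gs (i + 1) with hG₁
  have hG₁0 : 0 < G₁ := hg.trans_le (hG0 _)
  set L' := ⌊G₁ / (C * K')⌋₊ with hL'
  have hx : (Ls i : ℝ) * 2 + 2 ≤ G₁ / (C * K') := by
    have h := hfac (Ls i) hi0 (Gs i) hGi0.le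
    rw [← hGss, ← hG₁] at h
    refine le_trans ?_ (div_le_div_of_nonneg_right h (by positivity))
    rw [le_div_iff₀ (by positivity)]
    have h2 := (le_max_left _ _).trans hbig1
    rw [div_le_iff₀ hc] at h2
    rw [div_mul_eq_mul_div, div_mul_eq_mul_div, le_div_iff₀ hC0]
    have h3 := mul_le_mul_of_nonneg_left h2 hLi0.le
    have h4 : (1 : ℝ) ≤ Ls i := by exact_mod_cast (show 1 ≤ Ls i by omega)
    nlinarith [mul_le_mul_of_nonneg_left h4 (show (0 : ℝ) ≤ C * K' * C by positivity)]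
  have hL'1 : G₁ / (C * K') ≤ 2 * (L' : ℝ) ∧ (L' : ℝ) ≤ G₁ / (C * K') :=
    ⟨by linarith [Nat.lt_floor_add_one (G₁ / (C * K'))], Nat.floor_le (by linarith)⟩
  have hL'2 : Ls i + 1 ≤ L' := Nat.le_floor (by push_cast; linarith)
  have hL'0 : L₀ ≤ L' := by omega
  have hcheap : K' * af L' ≤ G₁ := by
    have h1 := mul_le_mul_of_nonneg_left ((haC L' hL'0).trans
      (mul_le_mul_of_nonneg_left hL'1.2 hC0.le)) hK'0.le
    rw [show K' * (C * (G₁ / (C * K'))) = G₁ by field_simp] at h1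
    exact h1
  obtain ⟨q, X, hst', hq, hX⟩ := hst i
  by_cases hD : 64 * Df (Ls i) ≤ Df L'
  · refine hwin _ _ G₁ L' ?_ (hG0 (i + 1)) hL'2 hD (by omega) hcheap
    rw [hG₁, hGss]
    exact hGl _ hi0 q X _ hst' (hG0 i) hq (hX.trans (hDL _ hi0))
  · set D' := Df L' with hD'
    have hD'L : L' ≤ D' := hDL L' hL'0
    have h2 := hfac L' hL'0 (Gs i) hGi0.le
    have hgl := hGl L' hL'0 q X _ hst' (hG0 i) (by omega) (by omega)
    have hge : g₀ ≤ c * D' * Gs i / af L' := by
      refine le_trans ((hG0 i).trans (le_mul_of_one_le_left hGi0.le ?_)) h2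
      refine le_trans (by linarith) (hB2.trans ?_)
      gcongr
      omega
    refine hwin _ _ _ (64 * D') hgl hge (by omega) (hDL _ (by omega)) (by omega) (le_trans ?_ h2)
    have h3 := mul_le_mul_of_nonneg_left (haC (64 * D') (by omega)) hK'0.le
    refine h3.trans ?_
    have hD0 : (0 : ℝ) < Df (Ls i) := hLi0.trans_le (by exact_mod_cast hDL _ hi0)
    have hDlt : ((64 * D' : ℕ) : ℝ) ≤ 4096 * Df (Ls i) := by
      exact_mod_cast (show 64 * D' ≤ 4096 * Df (Ls i) by omega)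
    have h4 := (le_max_right _ _).trans hbig2
    rw [div_le_div_iff₀ hc hD0] at h4
    refine (mul_le_mul_of_nonneg_left (mul_le_mul_of_nonneg_left hDlt hC0.le) hK'0.le).trans ?_
    refine le_trans ?_ (mul_le_mul_of_nonneg_right
      (mul_le_mul_of_nonneg_left (show G₁ / (C * K') / 2 ≤ (L' : ℝ) by linarith [hL'1.1])
        (show (0 : ℝ) ≤ c / C by positivity)) hGi0.le)
    rw [show c / C * (G₁ / (C * K') / 2) * Gs i = c * (Gs i * G₁) / (2 * C ^ 2 * K') by field_simp,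
      le_div_iff₀ (by positivity)]
    nlinarith

end Vale.Agent.P151.Root
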