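import Vale.Agent.P151.Root.Osss
import Vale.Agent.P151.Growth.Swap
import Vale.Agent.P151.Decay

/-!
# Sharpness of the cluster tail in finite windows

Exploring the clusters of a random sparse set of seeds bounds the derivative of the tail from below.
-/

namespace Vale.Agent.P151.Root

open Finset Vale.Agent.P165 Vale.Agent.P151.Growth

theorem avg_comm {α β : Type} [DecidableEq α] [DecidableEq β] (A : Finset α) (B : Finset β)
    (p r : ℝ) (F : Finset α → Finset β → ℝ) :
    avg A p (fun x => avg B r (F x)) = avg B r (fun y => avg A p fun x => F x y) := by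
  simp only [avg, mul_sum]
  rw [sum_comm]
  exact sum_congr rfl fun y _ => sum_congr rfl fun x _ => by ring

/-- A random subset misses a fixed set independently at each point. -/
theorem avg_miss {β : Type} [DecidableEq β] (B A : Finset β) (r : ℝ) :
    avg B r (fun W => ind (W ∩ A).Nonempty) = 1 - (1 - r) ^ (B ∩ A).card := by
  have h1 : avg B r (fun W => ind (W ∩ A).Nonempty)
      = avg (B ∩ A) r (fun W => 1 - ind (W = ∅)) := by
    rw [← avg_restrict (inter_subset_left : B ∩ A ⊆ B)]
    refine avg_congr B r fun W hW => ?_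
    have e : W ∩ (B ∩ A) = W ∩ A := by rw [← inter_assoc, inter_eq_left.2 hW]
    rw [e]
    by_cases h : (W ∩ A).Nonempty
    · rw [ind_true h, ind_false h.ne_empty, sub_zero]
    · rw [ind_false h, ind_true (not_nonempty_iff_eq_empty.1 h), sub_self]
  rw [h1, avg_sub, avg_one]
  congr 1
  rw [avg, sum_eq_single ∅ (fun W _ hW => by rw [ind_false hW, mul_zero])
    (fun h => absurd (empty_mem_powerset _) h), ind_true rfl, mul_one, wt]
  simp

theorem avg_miss_le {β : Type} [DecidableEq β] (B A : Finset β) {n : ℕ} (hn : 1 ≤ n) :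
    avg B (n : ℝ)⁻¹ (fun W => ind (W ∩ A).Nonempty) ≤ (min A.card n : ℕ) / (n : ℝ) := by
  have hn' : (0 : ℝ) < n := by exact_mod_cast hn
  have hr1 : (n : ℝ)⁻¹ ≤ 1 := inv_le_one_of_one_le₀ (by exact_mod_cast hn)
  rcases le_total n A.card with h | h
  · rw [min_eq_right h, div_self hn'.ne']
    exact avg_le_one B (by positivity) hr1 fun _ _ => ind_le_one _
  · rw [min_eq_left h, avg_miss]
    have hb := one_add_mul_le_pow (a := -(n : ℝ)⁻¹) (by linarith) (B ∩ A).card
    rw [← sub_eq_add_neg, mul_neg, ← sub_eq_add_neg] at hb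
    have hc : ((B ∩ A).card : ℝ) * (n : ℝ)⁻¹ ≤ A.card * (n : ℝ)⁻¹ :=
      mul_le_mul_of_nonneg_right (by exact_mod_cast card_le_card inter_subset_right) (by positivity)
    rw [div_eq_mul_inv]
    linarith

/-- A set of at least `n` seeds is hit with probability at least one half. -/
theorem half_le_avg_miss {β : Type} [DecidableEq β] (B A : Finset β) {n : ℕ} (hn : 1 ≤ n)
    (h : n ≤ (B ∩ A).card) : 1 / 2 ≤ avg B (n : ℝ)⁻¹ (fun W => ind (W ∩ A).Nonempty) := by
  have hn' : (0 : ℝ) < n := by exact_mod_cast hn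
  rw [avg_miss]
  have hr : 0 ≤ 1 - (n : ℝ)⁻¹ := sub_nonneg.2 (inv_le_one_of_one_le₀ (by exact_mod_cast hn))
  have h1 := pow_le_pow_of_le_one hr (by linarith [inv_pos.2 hn']) h
  have h2 : (1 - (n : ℝ)⁻¹) ^ n ≤ Real.exp (-1) := by
    refine le_trans (pow_le_pow_left₀ hr (show 1 - (n : ℝ)⁻¹ ≤ Real.exp (-(n : ℝ)⁻¹) by
      linarith [Real.add_one_le_exp (-(n : ℝ)⁻¹)]) n) (le_of_eq ?_)
    rw [← Real.exp_nat_mul]
    congr 1
    field_simp
  have h3 : Real.exp (-1) ≤ 1 / 2 := by
    rw [Real.exp_neg, one_div]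
    exact inv_anti₀ two_pos (by linarith [Real.add_one_le_exp (1 : ℝ)])
  linarith

variable {Γ : Type} [Group Γ] [DecidableEq Γ] {S : Finset Γ}

/-- The vertices joined to a seed. -/
noncomputable def hit (W : Finset Γ) (η : Finset (Sym2 Γ)) : Finset Γ := W.biUnion (cls η)

omit [Group Γ] in
theorem hit_mono (W : Finset Γ) {η η' : Finset (Sym2 Γ)} (h : η ⊆ η') : hit W η ⊆ hit W η' :=
  biUnion_mono fun w _ => cls_mono h w

omit [Group Γ] in
theorem mem_hit_iff {W : Finset Γ} {η : Finset (Sym2 Γ)} {a : Γ} :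
    a ∈ hit W η ↔ (W ∩ cls η a).Nonempty := by
  simp only [hit, mem_biUnion, Finset.Nonempty, mem_inter, mem_cls]
  exact ⟨fun ⟨w, hw, h⟩ => ⟨w, hw, h.symm⟩, fun ⟨w, hw, h⟩ => ⟨w, hw, h.symm⟩⟩

variable (S) in
/-- The edges still to be looked at. -/
noncomputable def border (W : Finset Γ) (E O C : Finset (Sym2 Γ)) : Finset (Sym2 Γ) :=
  (touch (nb S) (hit W O) ∩ E) \ (O ∪ C)

open Classical in
variable (S) in
/-- The exploration of the clusters of the seeds. -/
noncomputable def build (W : Finset Γ) (E : Finset (Sym2 Γ)) :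
    ℕ → Finset (Sym2 Γ) → Finset (Sym2 Γ) → Tree (Sym2 Γ)
  | 0, O, _ => .leaf (ind ((1 : Γ) ∈ hit W O))
  | m + 1, O, C =>
    if h : (border S W E O C).Nonempty then
      .node h.choose (build W E m (insert h.choose O) C) (build W E m O (insert h.choose C))
    else .leaf (ind ((1 : Γ) ∈ hit W O))

variable {W : Finset Γ} {E : Finset (Sym2 Γ)}

theorem build_ok : ∀ (m : ℕ) (O C : Finset (Sym2 Γ)), (build S W E m O C).Ok (E \ (O ∪ C))
  | 0, _, _ => ⟨ind_nonneg _, ind_le_one _⟩
  | m + 1, O, C => by
      rw [build]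
      split
      case isFalse => exact ⟨ind_nonneg _, ind_le_one _⟩
      case isTrue h =>
        obtain ⟨h1, h2⟩ := mem_sdiff.1 h.choose_spec
        refine ⟨mem_sdiff.2 ⟨(mem_inter.1 h1).2, h2⟩, ?_, ?_⟩
        · rw [← sdiff_insert, ← insert_union]; exact build_ok m _ _
        · rw [← sdiff_insert, ← union_insert]; exact build_ok m _ _

theorem build_val (hS : Gens S) (hE : Valid S E) : ∀ (m : ℕ) (O C η : Finset (Sym2 Γ)),
    O ⊆ E → η ⊆ E \ (O ∪ C) → (E \ (O ∪ C)).card ≤ m →
      (build S W E m O C).val η = ind ((1 : Γ) ∈ hit W (O ∪ η))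
  | 0, O, C, η, _, hη, hm => by
      have : η = ∅ := subset_empty.1 (hη.trans (card_eq_zero.1 (Nat.le_zero.1 hm)).subset)
      simp [build, Tree.val, this]
  | m + 1, O, C, η, hO, hη, hm => by
      rw [build]
      split
      case isFalse h =>
        rw [Tree.val]
        congr 2
        refine Subset.antisymm (hit_mono W subset_union_left) (biUnion_subset.2 fun w hw => ?_)
        have hv : Valid S (O ∪ η) := fun e he => hE e (union_subset hO (hη.trans sdiff_subset) he)
        refine (cls_subset_closed (self_mem_cls O w) fun a b ha hne hab => ?_).trans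
          (subset_biUnion_of_mem (cls O) hw)
        rcases mem_union.1 hab with hab' | hab'
        · exact cls_step ha hne hab'
        · refine absurd ⟨_, mem_sdiff.2 ⟨mem_inter.2 ⟨?_, (mem_sdiff.1 (hη hab')).1⟩,
            (mem_sdiff.1 (hη hab')).2⟩⟩ h
          exact mem_touch_of_end hS hv (mem_biUnion.2 ⟨w, hw, ha⟩) hab
      case isTrue h =>
        set e := h.choose with he
        obtain ⟨h1, h2⟩ := mem_sdiff.1 h.choose_spec
        have heU : e ∈ E \ (O ∪ C) := mem_sdiff.2 ⟨(mem_inter.1 h1).2, h2⟩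
        have hcard : ((E \ (O ∪ C)).erase e).card ≤ m := by
          rw [card_erase_of_mem heU]; omega
        have s1 : E \ (insert e O ∪ C) = (E \ (O ∪ C)).erase e := by
          rw [insert_union, sdiff_insert]
        have s2 : E \ (O ∪ insert e C) = (E \ (O ∪ C)).erase e := by
          rw [union_insert, sdiff_insert]
        rw [Tree.val]
        split
        case isTrue heη =>
          rw [← insert_erase heη, Tree.val_insert (build_ok m _ _) (by rw [s1]; exact notMem_erase _ _),
            build_val hS hE m _ C _ (insert_subset (mem_inter.1 h1).2 hO)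
              (by rw [s1]; exact erase_subset_erase _ hη) (by rw [s1]; exact hcard),
            union_insert, insert_union]
        case isFalse heη =>
          exact build_val hS hE m O _ η hO
            (by rw [s2]; exact fun x hx => mem_erase.2 ⟨fun hxe => heη (hxe ▸ hx), hη hx⟩)
            (by rw [s2]; exact hcard)

theorem build_rev {p : ℝ} (h0 : 0 ≤ p) (h1 : p ≤ 1) :
    ∀ (m : ℕ) (O C : Finset (Sym2 Γ)) (x : Sym2 Γ), x ∈ E \ (O ∪ C) →
      (build S W E m O C).rev p x
        ≤ avg (E \ (O ∪ C)) p fun η => ind (x ∈ touch (nb S) (hit W (O ∪ η)))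
  | 0, O, C, x, _ => avg_nonneg _ h0 h1 fun _ _ => ind_nonneg _
  | m + 1, O, C, x, hx => by
      rw [build]
      split
      case isFalse => exact avg_nonneg _ h0 h1 fun _ _ => ind_nonneg _
      case isTrue h =>
        set e := h.choose with he
        obtain ⟨he1, he2⟩ := mem_sdiff.1 h.choose_spec
        rw [Tree.rev]
        split
        case isTrue hxe =>
          subst hxe
          refine le_of_eq_of_le (avg_one _ p).symm (avg_mono _ h0 h1 fun η _ => le_of_eq ?_)
          exact (ind_true (touch_mono (hit_mono W subset_union_left) (mem_inter.1 he1).1)).symm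
        case isFalse hxe =>
          have heU : e ∈ E \ (O ∪ C) := mem_sdiff.2 ⟨(mem_inter.1 he1).2, he2⟩
          have hxU : x ∈ (E \ (O ∪ C)).erase e := mem_erase.2 ⟨hxe, hx⟩
          have i1 := build_rev h0 h1 m (insert e O) C x (by rwa [insert_union, sdiff_insert])
          have i0 := build_rev h0 h1 m O (insert e C) x (by rwa [union_insert, sdiff_insert])
          rw [insert_union, sdiff_insert] at i1
          rw [union_insert, sdiff_insert] at i0
          rw [avg_edge heU]
          simp only [union_insert, ← insert_union]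
          exact add_le_add (mul_le_mul_of_nonneg_left i1 h0)
            (mul_le_mul_of_nonneg_left i0 (sub_nonneg.2 h1))

/-- The tail bounds a large cluster in every window. -/
theorem avg_big_le (hS : Gens S) {p : ℝ} (h0 : 0 ≤ p) (h1 : p ≤ 1) (hE : Valid S E) (a : Γ)
    (m : ℕ) : avg E p (fun η => ind (m ≤ csize η a)) ≤ tail S p m := by
  have hv : Valid S (E ∪ eball S a m) := fun e he => by
    rcases mem_union.1 he with h | h
    exacts [hE e h, valid_eball hS (Subset.refl _) e h]
  rw [← tail_eq hS hv subset_union_right, ← avg_restrict (subset_union_left : E ⊆ E ∪ eball S a m)]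
  exact avg_mono _ h0 h1 fun η _ => monotone_big m a inter_subset_left

variable (S) in
/-- The mean of the tail up to `n`. -/
noncomputable def avgTail (p : ℝ) (n : ℕ) : ℝ := (∑ m ∈ Icc 1 n, tail S p m) / n

theorem avg_min_le (hS : Gens S) {p : ℝ} (h0 : 0 ≤ p) (h1 : p ≤ 1) (hE : Valid S E) (a : Γ)
    (n : ℕ) : avg E p (fun η => ((min (csize η a) n : ℕ) : ℝ) / n) ≤ avgTail S p n := by
  have e : ∀ η : Finset (Sym2 Γ), ((min (csize η a) n : ℕ) : ℝ) / n
      = (n : ℝ)⁻¹ * ∑ m ∈ Icc 1 n, ind (m ≤ csize η a) := by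
    intro η
    rw [div_eq_inv_mul]
    congr 1
    clear h0 h1
    induction n with
    | zero => simp
    | succ k ih =>
      rw [sum_Icc_succ_top (by omega), ← ih]
      by_cases hc : k + 1 ≤ csize η a
      · rw [ind_true hc, min_eq_right hc, min_eq_right (show k ≤ csize η a by omega)]
        push_cast; ring
      · rw [ind_false hc, add_zero, show min (csize η a) (k + 1) = min (csize η a) k by omega]
  rw [avg_congr E p fun η _ => e η, avg_mul, avg_sum, avgTail, div_eq_inv_mul]
  exact mul_le_mul_of_nonneg_left (sum_le_sum fun m _ => avg_big_le hS h0 h1 hE a m) (by positivity)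

theorem avgTail_le (hS : Gens S) {p : ℝ} (h0 : 0 ≤ p) (h1 : p ≤ 1) {m n : ℕ} (hn : 1 ≤ n) :
    avgTail S p n ≤ (m : ℝ) / n + tail S p m := by
  have hn' : (0 : ℝ) < n := by exact_mod_cast hn
  rw [avgTail, div_le_iff₀ hn', add_mul, div_mul_cancel₀ _ hn'.ne']
  calc ∑ k ∈ Icc 1 n, tail S p k
      ≤ ∑ k ∈ Icc 1 n, ((if k ≤ m then (1 : ℝ) else 0) + tail S p m) := by
        refine sum_le_sum fun k _ => ?_
        split
        · linarith [tail_le_one (S := S) h0 h1 k, tail_nonneg (S := S) h0 h1 m]
        · linarith [tail_antitone hS h0 h1 (show m ≤ k by omega)]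
    _ ≤ _ := by
        rw [sum_add_distrib, sum_boole, sum_const, Nat.card_Icc, nsmul_eq_mul]
        have : ((Icc 1 n).filter fun k => k ≤ m).card ≤ m :=
          (card_le_card (t := Icc 1 m) fun k hk => by simp at hk ⊢; omega).trans (by simp)
        have h2 : (((Icc 1 n).filter fun k => k ≤ m).card : ℝ) ≤ m := by exact_mod_cast this
        push_cast [Nat.add_sub_cancel]
        linarith

/-- Sharpness: the logarithmic derivative of the tail is at least the inverse of its mean. -/
theorem sharpness (hS : Gens S) {p : ℝ} (h0 : 0 < p) (h1 : p < 1) {n : ℕ} (hn : 1 ≤ n) :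
    ∃ D : ℝ, HasDerivAt (fun q => tail S q n) D p ∧ 0 ≤ D ∧
      (1 / 2 - avgTail S p n) * tail S p n ≤ 2 * avgTail S p n * D := by
  set E := eball S (1 : Γ) n with hEdef
  have hE : Valid S E := valid_eball hS (Subset.refl _)
  set f : Finset (Sym2 Γ) → ℝ := fun η => ind (n ≤ csize η 1) with hf
  set M := avgTail S p n with hM
  set r : ℝ := (n : ℝ)⁻¹ with hr
  have hr0 : 0 ≤ r := by positivity
  have hr1 : r ≤ 1 := inv_le_one_of_one_le₀ (by exact_mod_cast hn)
  set B := ball S n with hBdef
  have hdlt : ∀ e η, 0 ≤ dlt e f η := fun e η =>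
    sub_nonneg.2 (monotone_big n 1 ((erase_subset e η).trans (subset_insert e η)))
  set D := ∑ e ∈ E, avg E p (fun η => |dlt e f η|) with hD
  have hD0 : 0 ≤ D := sum_nonneg fun e _ => avg_nonneg _ h0.le h1.le fun _ _ => abs_nonneg _
  refine ⟨D, ?_, hD0, ?_⟩
  · refine (hasDerivAt_dlt E f h0 h1).congr_deriv (sum_congr rfl fun e _ => ?_)
    exact avg_congr _ _ fun η _ => (abs_of_nonneg (hdlt e η)).symm
  set g : Finset Γ → Finset (Sym2 Γ) → ℝ := fun W η => ind (W ∩ cls η 1).Nonempty with hg
  have hcov : ∀ W, avg E p (fun η => g W η * f η) - avg E p (g W) * avg E p f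
      ≤ p * (1 - p) * ∑ x ∈ E,
          avg E p (fun η => ind (x ∈ touch (nb S) (hit W η))) * avg E p (fun η => |dlt x f η|) := by
    intro W
    set T := build S W E E.card ∅ ∅ with hT
    have hU : E \ (∅ ∪ ∅) = E := by simp
    have hok : T.Ok E := by have := build_ok (S := S) (W := W) (E := E) E.card ∅ ∅; rwa [hU] at this
    have hval : ∀ η, η ⊆ E → T.val η = g W η := by
      intro η hη
      rw [hT, build_val hS hE E.card ∅ ∅ η (empty_subset _) (by rwa [hU]) (by rw [hU]),
        empty_union, hg]
      exact ind_congr mem_hit_iff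
    have h := (abs_le.1 (cov_le h0.le h1.le T E hok f)).2
    rw [avg_congr E p hval, avg_congr E p fun η hη => by rw [hval η hη]] at h
    refine h.trans (mul_le_mul_of_nonneg_left (sum_le_sum fun x hx => ?_)
      (mul_nonneg h0.le (sub_nonneg.2 h1.le)))
    refine mul_le_mul_of_nonneg_right ?_ (avg_nonneg _ h0.le h1.le fun _ _ => abs_nonneg _)
    have := build_rev (S := S) (W := W) (E := E) h0.le h1.le E.card ∅ ∅ x (by rwa [hU])
    simpa [hU] using this
  have hg1 : ∀ a : Γ, avg B r (fun W => avg E p fun η => ind (W ∩ cls η a).Nonempty) ≤ M := by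
    intro a
    rw [avg_comm]
    exact (avg_mono E h0.le h1.le fun η _ => avg_miss_le B (cls η a) hn).trans
      (avg_min_le hS h0.le h1.le hE a n)
  have hbig : ∀ η, η ⊆ E → 1 / 2 * f η ≤ avg B r (fun W => g W η) * f η := by
    intro η hη
    rw [hf]
    by_cases h : n ≤ csize η (1 : Γ)
    swap
    · simp [ind_false h]
    simp only [ind_true h, mul_one]
    refine half_le_avg_miss B (cls η 1) hn ?_
    have hv : Valid S η := fun e he => hE e (hη he)
    by_cases hsm : csize η (1 : Γ) ≤ n + 1
    · have hsub : cls η (1 : Γ) ⊆ B := fun y hy =>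
        ball_mono (show csize η (1 : Γ) - 1 ≤ n by omega) (by simpa using cls_subset_ball hS hv hy)
      rw [inter_eq_right.2 hsub]
      exact h
    · have h' := (le_csize_inter hS hv (x := (1 : Γ)) (n := n) (R := n - 1)
        (E := eball S 1 (n - 1)) (by omega) inter_subset_right).1 h
      refine h'.trans (card_le_card fun y hy => mem_inter.2 ⟨?_, cls_mono inter_subset_left 1 hy⟩)
      refine cls_subset_closed (K := ball S n) (one_mem_ball n) (fun a b ha hne hab => ?_) hy
      obtain ⟨⟨z, s⟩, hz, he⟩ := mem_image.1 (mem_inter.1 hab).2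
      obtain ⟨z', hz', rfl⟩ := mem_image.1 (mem_product.1 hz).1
      rw [one_mul] at he
      have hb : b = z' ∨ b = nb S z' s := by
        rcases Sym2.eq_iff.1 he with ⟨-, h3⟩ | ⟨h3, -⟩
        exacts [Or.inr h3.symm, Or.inl h3.symm]
      rcases hb with rfl | rfl
      · exact ball_mono (by omega) hz'
      · exact ball_mono (by omega) (mul_mem_ball_succ hz' s.2)
  have hlow : 1 / 2 * tail S p n ≤ avg B r (fun W => avg E p fun η => g W η * f η) := by
    rw [avg_comm, tail, ← hEdef, ← avg_mul]
    refine avg_mono E h0.le h1.le fun η hη => (hbig η hη).trans (le_of_eq ?_)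
    rw [mul_comm, ← avg_mul]
    exact avg_congr _ _ fun W _ => mul_comm _ _
  have hup := avg_mono B hr0 hr1 (fun W _ => hcov W)
  rw [avg_sub, avg_mul, avg_sum, avg_congr B r (f := fun W => avg E p (g W) * avg E p f)
    (g := fun W => avg E p f * avg E p (g W)) fun W _ => mul_comm _ _, avg_mul] at hup
  have ht : avg E p f = tail S p n := rfl
  have ht0 := tail_nonneg (S := S) h0.le h1.le n
  have hrev : ∑ x ∈ E, avg B r (fun W => avg E p (fun η => ind (x ∈ touch (nb S) (hit W η)))
      * avg E p (fun η => |dlt x f η|)) ≤ 2 * M * D := by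
    rw [hD, mul_sum]
    refine sum_le_sum fun x _ => ?_
    rw [avg_congr B r fun W _ => mul_comm _ _, avg_mul, mul_comm]
    refine mul_le_mul_of_nonneg_right ?_ (avg_nonneg _ h0.le h1.le fun _ _ => abs_nonneg _)
    induction x using Sym2.ind with
    | h a b =>
      refine le_trans (avg_mono B hr0 hr1
        (g := fun W => avg E p (fun η => ind (W ∩ cls η a).Nonempty)
          + avg E p (fun η => ind (W ∩ cls η b).Nonempty)) fun W _ => ?_)
        (by rw [avg_add]; linarith [hg1 a, hg1 b])
      rw [← avg_add]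
      refine avg_mono E h0.le h1.le fun η _ => ?_
      by_cases h : s(a, b) ∈ touch (nb S) (hit W η)
      swap
      · rw [ind_false h]
        exact add_nonneg (ind_nonneg _) (ind_nonneg _)
      obtain ⟨v, hv, hve⟩ := touch_ends h
      rw [ind_true h]
      rcases Sym2.mem_iff.1 hve with rfl | rfl
      · rw [ind_true (mem_hit_iff.1 hv)]; linarith [ind_nonneg (W ∩ cls η b).Nonempty]
      · rw [ind_true (mem_hit_iff.1 hv)]; linarith [ind_nonneg (W ∩ cls η a).Nonempty]
  have hpq : p * (1 - p) ≤ 1 := by nlinarith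
  have hS2 := mul_le_mul_of_nonneg_left (hg1 1) ht0
  rw [ht] at hup
  simp only [hg] at hup hlow
  have hX : 0 ≤ ∑ x ∈ E, avg B r (fun W => avg E p (fun η => ind (x ∈ touch (nb S) (hit W η)))
      * avg E p (fun η => |dlt x f η|)) := sum_nonneg fun x _ => avg_nonneg _ hr0 hr1 fun W _ =>
    mul_nonneg (avg_nonneg _ h0.le h1.le fun _ _ => ind_nonneg _)
      (avg_nonneg _ h0.le h1.le fun _ _ => abs_nonneg _)
  have hY := (mul_le_of_le_one_left hX hpq).trans hrev
  linarith

/-- Below a parameter with a small tail the tail drops exponentially fast. -/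
theorem tail_drop (hS : Gens S) {q' q : ℝ} (h0 : 0 < q') (hq : q' ≤ q) (h1 : q < 1) {m n : ℕ}
    (hn : 1 ≤ n) (hmn : 1 ≤ m) (hsmall : (m : ℝ) / n + tail S q m ≤ 1 / 4) :
    tail S q' n ≤ Real.exp (-(q - q') / (8 * ((m : ℝ) / n + tail S q m))) * tail S q n := by
  set ε := (m : ℝ) / n + tail S q m with hε
  have hε0 : 0 < ε := by
    have := tail_nonneg (S := S) (h0.le.trans hq) h1.le m
    have : (0 : ℝ) < (m : ℝ) / n := div_pos (by exact_mod_cast hmn) (by exact_mod_cast hn)
    linarith
  set w := (8 * ε)⁻¹ with hw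
  set φ : ℝ → ℝ := fun x => tail S x n * Real.exp (-w * x) with hφ
  have hcont : Continuous φ :=
    (continuous_avg _ _).mul (Real.continuous_exp.comp (continuous_const.mul continuous_id))
  have hmono : MonotoneOn φ (Set.Icc q' q) := by
    refine monotoneOn_of_deriv_nonneg (convex_Icc q' q) hcont.continuousOn ?_ ?_
    · intro x hx
      rw [interior_Icc] at hx
      obtain ⟨D, hD, -, -⟩ := sharpness (S := S) hS (h0.trans hx.1) (hx.2.trans h1) hn
      exact (hD.mul ((hasDerivAt_id x).const_mul (-w)).exp).differentiableAt.differentiableWithinAt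
    · intro x hx
      rw [interior_Icc] at hx
      have hx0 : 0 < x := h0.trans hx.1
      have hx1 : x < 1 := hx.2.trans h1
      obtain ⟨D, hD, hD0, hineq⟩ := sharpness (S := S) hS hx0 hx1 hn
      have hd : HasDerivAt φ _ x := hD.mul ((hasDerivAt_id x).const_mul (-w)).exp
      rw [hd.deriv]
      have hM : avgTail S x n ≤ ε := by
        refine (avgTail_le hS hx0.le hx1.le (m := m) hn).trans ?_
        rw [hε]
        linarith [tail_mono_param (S := S) hx0.le hx.2.le h1.le m]
      have hM0 : 0 ≤ avgTail S x n :=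
        div_nonneg (sum_nonneg fun k _ => tail_nonneg hx0.le hx1.le k) (Nat.cast_nonneg n)
      have ht0 := tail_nonneg (S := S) hx0.le hx1.le n
      have h4 : 1 / 4 * tail S x n ≤ 2 * ε * D :=
        ((mul_le_mul_of_nonneg_right (by linarith) ht0).trans hineq).trans
          (mul_le_mul_of_nonneg_right (by linarith) hD0)
      have h5 : w * tail S x n ≤ D := by
        rw [hw, inv_mul_le_iff₀ (by positivity)]
        linarith
      have := mul_le_mul_of_nonneg_right h5 (Real.exp_pos (-w * id x)).le
      simp only [id_eq, mul_one] at this ⊢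
      linarith
  have h := hmono (Set.left_mem_Icc.2 hq) (Set.right_mem_Icc.2 hq) hq
  simp only [hφ] at h
  have h2 := mul_le_mul_of_nonneg_right h (Real.exp_pos (w * q')).le
  rw [mul_assoc, ← Real.exp_add, show -w * q' + w * q' = 0 by ring, Real.exp_zero, mul_one] at h2
  refine h2.trans (le_of_eq ?_)
  rw [mul_assoc, ← Real.exp_add, mul_comm, hw]
  congr 2
  rw [div_eq_mul_inv]
  ring

end Vale.Agent.P151.Root
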