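import Vale.Agent.P151.Root.Sharpness
import Vale.Agent.P151.Growth.Criterion
import Vale.Agent.P151.Growth.Thin

/-!
# A good scale with a small exponent above every level

Just below `pc` there is, above every large `L`, a scale `D` at which the tail roughly squares
while its exponent is at most a multiple of `min L (sqrt (D / L))`.
-/

namespace Vale.Agent.P151.Root

open Finset Filter Vale.Agent.P165 Vale.Agent.P151.Growth Real

variable {Γ : Type} [Group Γ] [DecidableEq Γ] {S : Finset Γ}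

/-- A squaring recursion loses at most a double exponential. -/
theorem pow_two_pow_le' {u : ℕ → ℝ} {c : ℝ} (hc : 0 ≤ c) (h0 : c ≤ u 0) :
    ∀ i : ℕ, (∀ k < i, u k ^ 2 ≤ u (k + 1)) → c ^ (2 ^ i) ≤ u i
  | 0, _ => by simpa using h0
  | i + 1, h => by
      refine le_trans ?_ (h i (by omega))
      rw [pow_succ 2 i, pow_mul]
      exact pow_le_pow_left₀ (pow_nonneg hc _)
        (pow_two_pow_le' hc h0 i fun k hk => h k (by omega)) 2

/-- In `[pc - h, pc]` the cluster is large at the level `L`. -/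
theorem tail_flat (hS : Gens S) [Infinite Γ] (hc : (cayley S).Connected) (hpc : pc (cayley S) < 1)
    {θ q h : ℝ} (hθ : 0 < θ) (hθn : ∀ n, θ ≤ tail S (pc (cayley S)) n) {L : ℕ}
    (hh : h = pc (cayley S) * (2 : ℝ)⁻¹ ^ L / 4) (hq1 : pc (cayley S) - h ≤ q)
    (hq2 : q ≤ pc (cayley S)) : 3 / 4 * θ ≤ tail S q (2 ^ L) := by
  subst hh
  set P := pc (cayley S) with hP
  have hpc0 : 0 < P := pc_pos hS hc
  have hx1 : (2 : ℝ)⁻¹ ^ L ≤ 1 := pow_le_one₀ (by norm_num) (by norm_num)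
  have hx0 : (0 : ℝ) ≤ 2⁻¹ ^ L := by positivity
  have hr : 0 ≤ 1 - (2 : ℝ)⁻¹ ^ L / 4 := by linarith
  have hth := tail_thin (S := S) hpc0.le hpc.le hr (by linarith) (2 ^ L)
  have hb := one_add_mul_le_pow (a := -((2 : ℝ)⁻¹ ^ L / 4)) (by linarith) (2 ^ L)
  have e : ((2 ^ L : ℕ) : ℝ) * (2 : ℝ)⁻¹ ^ L = 1 := by
    push_cast; rw [← mul_pow]; norm_num
  rw [← sub_eq_add_neg] at hb
  refine le_trans ?_ (tail_mono_param (mul_nonneg hpc0.le hr)
    (show P * (1 - (2 : ℝ)⁻¹ ^ L / 4) ≤ q by linarith) (hq2.trans hpc.le) (2 ^ L))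
  refine le_trans ?_ hth
  exact mul_le_mul (by nlinarith) (hθn _) hθ.le (pow_nonneg hr _)

/-- The first good scale before the level `exp (-4 L)` gives the witness. -/
theorem good_of_first (hS : Gens S) [Infinite Γ] (hc : (cayley S).Connected)
    (hpc : pc (cayley S) < 1) {θ q h : ℝ} (hθ : 0 < θ)
    (hθn : ∀ n, θ ≤ tail S (pc (cayley S)) n) {L : ℕ} (hL : 4 ≤ L)
    (hh : h = pc (cayley S) * (2 : ℝ)⁻¹ ^ L / 4)
    (hq1 : pc (cayley S) - h ≤ q) (hq2 : q ≤ pc (cayley S) - h / 2) {k : ℕ}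
    (hno : ∀ j < k, tail S q (2 ^ (4 ^ j * L)) ^ 2 / 2 < tail S q (2 ^ (4 ^ (j + 1) * L)))
    (hk : exp (-(4 * (L : ℝ))) ≤ tail S q (2 ^ (4 ^ k * L)))
    (hgood : tail S q (2 ^ (4 ^ (k + 1) * L)) ≤ tail S q (2 ^ (4 ^ k * L)) ^ 2 / 2) :
    ∃ (q : ℝ) (D : ℕ) (a : ℝ), pc (cayley S) * (1 - (2 : ℝ)⁻¹ ^ L / 4) ≤ q ∧
      q ≤ pc (cayley S) * (1 - (2 : ℝ)⁻¹ ^ (L + 1) / 4) ∧ L ≤ D ∧ 0 < a ∧
      a ≤ max (max 4 (log (4 / θ))) (log (4 / θ) * log (4 / θ)) * L ∧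
      a * L ≤ max (max 4 (log (4 / θ))) (log (4 / θ) * log (4 / θ)) * D ∧
      a * a * L ≤ max (max 4 (log (4 / θ))) (log (4 / θ) * log (4 / θ)) * D ∧
      exp (-a) ≤ tail S q (2 ^ D) ∧ tail S q (2 ^ (4 * D)) ≤ tail S q (2 ^ D) ^ 2 / 2 := by
  set P := pc (cayley S) with hP
  set a₀ := log (4 / θ) with ha₀
  have hpc0 : 0 < P := pc_pos hS hc
  have hθ1 : θ ≤ 1 := (hθn 0).trans (tail_le_one hpc0.le hpc.le 0)
  have ha₀0 : 0 < a₀ := log_pos (by rw [lt_div_iff₀ hθ]; linarith)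
  have hexpa : exp (-a₀) = θ / 4 := by rw [exp_neg, ha₀, exp_log (by positivity), inv_div]
  have x4 : (4 : ℝ) ≤ L := by exact_mod_cast hL
  have hx1 : (2 : ℝ)⁻¹ ^ L ≤ 1 := pow_le_one₀ (by norm_num) (by norm_num)
  have hh0 : 0 ≤ h := by rw [hh]; positivity
  have hhP : h ≤ P / 4 := by rw [hh]; nlinarith
  have hq0 : 0 < q := by linarith
  have hq1' : q ≤ 1 := by linarith
  have hflat := tail_flat hS hc hpc hθ hθn hh hq1 (by linarith)
  have hlow : exp (-(a₀ * (2 : ℝ) ^ k)) ≤ tail S q (2 ^ (4 ^ k * L)) := by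
    have h1 := pow_two_pow_le' (u := fun i => tail S q (2 ^ (4 ^ i * L)) / 2)
      (show (0 : ℝ) ≤ θ / 4 by positivity) (by simp only [pow_zero, one_mul]; linarith) k
      fun i hi => by have := hno i hi; nlinarith
    rw [← hexpa, ← exp_nat_mul] at h1
    push_cast at h1
    have h2 := tail_nonneg (S := S) hq0.le hq1' (2 ^ (4 ^ k * L))
    rw [show -(a₀ * (2 : ℝ) ^ k) = (2 : ℝ) ^ k * -a₀ by ring]
    linarith
  refine ⟨q, 4 ^ k * L, min (4 * (L : ℝ)) (a₀ * 2 ^ k), ?_, ?_, ?_, ?_, ?_, ?_, ?_, ?_, ?_⟩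
  · rw [hh] at hq1; linarith
  · rw [hh] at hq2; rw [pow_succ]; linarith
  · exact Nat.le_mul_of_pos_left L (by positivity)
  · exact lt_min (by linarith) (by positivity)
  · exact (min_le_left _ _).trans (mul_le_mul_of_nonneg_right
      (le_max_of_le_left (le_max_left _ _)) (Nat.cast_nonneg L))
  · refine (mul_le_mul_of_nonneg_right (min_le_right _ _) (Nat.cast_nonneg L)).trans ?_
    push_cast
    rw [mul_assoc a₀]
    refine mul_le_mul (le_max_of_le_left (le_max_right _ _)) ?_ (by positivity) (by positivity)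
    exact mul_le_mul_of_nonneg_right (pow_le_pow_left₀ zero_le_two (by norm_num) k)
      (Nat.cast_nonneg L)
  · have hmin : 0 ≤ min (4 * (L : ℝ)) (a₀ * 2 ^ k) := le_min (by linarith) (by positivity)
    refine (mul_le_mul_of_nonneg_right (mul_le_mul (min_le_right _ _) (min_le_right _ _) hmin
      (by positivity)) (Nat.cast_nonneg L)).trans ?_
    push_cast
    rw [show a₀ * 2 ^ k * (a₀ * 2 ^ k) * (L : ℝ) = a₀ * a₀ * ((2 * 2) ^ k * L) by
      rw [mul_pow]; ring, show (2 : ℝ) * 2 = 4 by norm_num]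
    exact mul_le_mul_of_nonneg_right (le_max_right _ _) (by positivity)
  · rcases min_choice (4 * (L : ℝ)) (a₀ * 2 ^ k) with e | e <;> rw [e]
    exacts [hk, hlow]
  · rw [show 4 * (4 ^ k * L) = 4 ^ (k + 1) * L by ring]; exact hgood

/-- A long flat stretch just below `pc` contradicts the criterion. -/
theorem no_long_flat {j₀ : ℕ} {κ P h : ℝ} {K L N : ℕ} (hκ : 0 < κ) (hP0 : 0 < P) (hP1 : P < 1)
    (hcrit : ∀ j ≥ j₀, ∀ p : ℝ, P / 2 ≤ p →
      (j : ℝ) ^ (-κ) ≤ tail S p (2 ^ (j + 1)) → P ≤ p + (j : ℝ) ^ (-κ))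
    (hKκ : 6 ≤ (K : ℝ) * κ) (hN : N = K * L) (hL : 4 ≤ L) (hj₀ : j₀ ≤ L)
    (he : 8 / P * exp (-5 * (L : ℝ)) ≤ 1) (hh : h = P * (2 : ℝ)⁻¹ ^ L / 4) :
    tail S (P - h / 2) (2 ^ (4 ^ N * L)) < exp (-(4 * (L : ℝ))) := by
  by_contra hcon
  rw [not_lt] at hcon
  set j := 4 ^ N * L - 1 with hj
  have h41 : 1 ≤ 4 ^ N := Nat.one_le_pow _ _ (by norm_num)
  have hsN : 1 ≤ 4 ^ N * L := Nat.one_le_iff_ne_zero.2 (by simp; omega)
  have hbig : 2 ^ (2 * N) ≤ j := by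
    have h4 : 2 ^ (2 * N) = 4 ^ N := by rw [pow_mul]; norm_num
    have : 4 ^ N * 4 ≤ 4 ^ N * L := Nat.mul_le_mul_left _ hL
    omega
  have hK : 1 ≤ K := Nat.one_le_iff_ne_zero.2 fun hK0 => by
    simp [hK0] at hKκ
    linarith
  have hjj₀ : j₀ ≤ j := by
    have : 2 * N < 2 ^ (2 * N) := Nat.lt_two_pow_self
    have : L ≤ N := hN ▸ Nat.le_mul_of_pos_left L (by omega)
    omega
  have x4 : (4 : ℝ) ≤ L := by exact_mod_cast hL
  have hsmall : (j : ℝ) ^ (-κ) ≤ exp (-(6 * (L : ℝ))) := by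
    have h1 : (2 : ℝ) ^ (2 * N) ≤ j := by exact_mod_cast hbig
    refine (rpow_le_rpow_of_nonpos (by positivity) h1 (by linarith)).trans ?_
    rw [← rpow_natCast, ← rpow_mul two_pos.le, rpow_def_of_pos two_pos]
    refine exp_le_exp.2 ?_
    rw [hN]; push_cast
    have h3 := mul_le_mul_of_nonneg_right hKκ (Nat.cast_nonneg (α := ℝ) L)
    have h4 := mul_le_mul log_two_gt_d9.le h3 (by positivity) (log_pos one_lt_two).le
    linarith
  have hx1 : (2 : ℝ)⁻¹ ^ L ≤ 1 := pow_le_one₀ (by norm_num) (by norm_num)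
  have hhP : h ≤ P / 4 := by rw [hh]; nlinarith
  have hh0 : 0 ≤ h := by rw [hh]; positivity
  have hcr := hcrit j hjj₀ (P - h / 2) (by linarith) (hsmall.trans (le_trans
    (exp_le_exp.2 (show -(6 * (L : ℝ)) ≤ -(4 * L) by linarith))
    (by rw [show j + 1 = 4 ^ N * L by omega]; exact hcon)))
  have h8 : exp (-(L : ℝ)) < (2 : ℝ)⁻¹ ^ L := by
    rw [← exp_log (show (0 : ℝ) < 2⁻¹ by norm_num), ← exp_nat_mul, exp_lt_exp, log_inv]
    nlinarith [log_two_lt_d9]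
  rw [div_mul_eq_mul_div, div_le_iff₀ hP0, one_mul] at he
  have h6 : exp (-(6 * (L : ℝ))) * 8 < P * (2 : ℝ)⁻¹ ^ L := by
    rw [show exp (-(6 * (L : ℝ))) = exp (-5 * (L : ℝ)) * exp (-(L : ℝ)) by rw [← exp_add]; ring_nf]
    calc exp (-5 * (L : ℝ)) * exp (-(L : ℝ)) * 8 = 8 * exp (-5 * (L : ℝ)) * exp (-(L : ℝ)) := by ring
      _ ≤ P * exp (-(L : ℝ)) := mul_le_mul_of_nonneg_right he (exp_pos _).le
      _ < _ := mul_lt_mul_of_pos_left h8 hP0
  rw [hh] at hcr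
  linarith

/-- One step down in the parameter kills the scale after a small tail. -/
theorem drop_next (hS : Gens S) {P h δ q : ℝ} {K L N s : ℕ} (hP0 : 0 < P) (hL : 4 ≤ L) (hs : L ≤ s)
    (hK : 0 < K) (hN : N = K * L) (he : 1920 * (K : ℝ) / P * (L : ℝ) ^ 2 * exp (-1 * (L : ℝ)) ≤ 1)
    (hh : h = P * (2 : ℝ)⁻¹ ^ L / 4) (hδ : δ = h / (2 * N)) (hq0 : 0 < q - δ) (hq1 : q < 1)
    (hsq : tail S q (2 ^ s) ^ 2 / 2 < exp (-(4 * (L : ℝ)))) :
    tail S (q - δ) (2 ^ (4 * s)) ≤ exp (-(10 * (L : ℝ))) := by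
  have x4 : (4 : ℝ) ≤ L := by exact_mod_cast hL
  have hδ0 : 0 ≤ δ := by rw [hδ, hh]; positivity
  set ε := ((2 ^ s : ℕ) : ℝ) / ((2 ^ (4 * s) : ℕ) : ℝ) + tail S q (2 ^ s) with hε
  have hε3 : ε ≤ 3 * exp (-(2 * (L : ℝ))) := by
    have h1 : ((2 ^ s : ℕ) : ℝ) / ((2 ^ (4 * s) : ℕ) : ℝ) ≤ exp (-(2 * (L : ℝ))) := by
      push_cast
      rw [show 4 * s = 3 * s + s by ring, pow_add, div_mul_cancel_right₀ (by positivity), exp_neg]
      refine inv_anti₀ (exp_pos _) ?_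
      rw [← exp_log two_pos, ← exp_nat_mul, exp_le_exp, exp_log two_pos]
      have : (L : ℝ) ≤ (s : ℝ) := by exact_mod_cast hs
      push_cast
      nlinarith [log_two_gt_d9]
    have h2 : tail S q (2 ^ s) ≤ 2 * exp (-(2 * (L : ℝ))) := by
      have h3 : exp (-(2 * (L : ℝ))) ^ 2 = exp (-(4 * (L : ℝ))) := by
        rw [← exp_nat_mul]; push_cast; ring_nf
      refine (abs_le.1 (abs_le_of_sq_le_sq ?_ (by positivity))).2
      nlinarith [exp_pos (-(2 * (L : ℝ)))]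
    rw [hε]; linarith
  have hε0 : 0 < ε := by
    have := tail_nonneg (S := S) (by linarith : 0 ≤ q) hq1.le (2 ^ s)
    rw [hε]; positivity
  have hε4 : ε ≤ 1 / 4 := by
    refine hε3.trans ?_
    have := add_one_le_exp (2 * (L : ℝ))
    have h12 : (12 : ℝ) ≤ exp (2 * (L : ℝ)) := by
      linarith [quadratic_le_exp_of_nonneg (show (0 : ℝ) ≤ 2 * (L : ℝ) by positivity),
        mul_le_mul x4 x4 (by norm_num) (Nat.cast_nonneg L)]
    rw [exp_neg, ← div_eq_mul_inv, div_le_iff₀ (exp_pos _)]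
    linarith
  refine (tail_drop hS hq0 (by linarith) hq1 Nat.one_le_two_pow Nat.one_le_two_pow
    (m := 2 ^ s) (n := 2 ^ (4 * s)) hε4).trans ((mul_le_of_le_one_right (exp_pos _).le
      (tail_le_one (by linarith) hq1.le _)).trans (exp_le_exp.2 ?_))
  rw [← hε, sub_sub_cancel, neg_div, neg_le_neg_iff, le_div_iff₀ (by positivity)]
  refine le_trans (mul_le_mul_of_nonneg_left
    (mul_le_mul_of_nonneg_left hε3 (by norm_num)) (by positivity)) ?_
  have h5 : exp (-(2 * (L : ℝ))) ≤ exp (-1 * (L : ℝ)) * (2 : ℝ)⁻¹ ^ L := by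
    rw [← exp_log (show (0 : ℝ) < 2⁻¹ by norm_num), ← exp_nat_mul, ← exp_add, exp_le_exp, log_inv]
    nlinarith [log_two_lt_d9]
  rw [hδ, hh, hN]; push_cast
  have hKr : (0 : ℝ) < K := by exact_mod_cast hK
  rw [le_div_iff₀ (by positivity)]
  have h6 := mul_le_mul_of_nonneg_left h5 (show (0 : ℝ) ≤ 480 * K * L ^ 2 by positivity)
  rw [div_mul_eq_mul_div, div_mul_eq_mul_div, div_le_iff₀ hP0, one_mul] at he
  have h7 := mul_le_mul_of_nonneg_right he (show (0 : ℝ) ≤ 2⁻¹ ^ L by positivity)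
  linarith

theorem good_scale (hS : Gens S) [Infinite Γ] (hc : (cayley S).Connected)
    (hpc : pc (cayley S) < 1) {θ κ : ℝ} (hθ : 0 < θ)
    (hθn : ∀ n, θ ≤ tail S (pc (cayley S)) n) (hκ : 0 < κ)
    (hcrit : ∃ j₀ : ℕ, ∀ j ≥ j₀, ∀ p : ℝ, pc (cayley S) / 2 ≤ p →
      (j : ℝ) ^ (-κ) ≤ tail S p (2 ^ (j + 1)) → pc (cayley S) ≤ p + (j : ℝ) ^ (-κ)) :
    ∃ (C : ℝ) (L₀ : ℕ), 1 ≤ C ∧ ∀ L ≥ L₀, ∃ (q : ℝ) (D : ℕ) (a : ℝ),
      pc (cayley S) * (1 - (2 : ℝ)⁻¹ ^ L / 4) ≤ q ∧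
      q ≤ pc (cayley S) * (1 - (2 : ℝ)⁻¹ ^ (L + 1) / 4) ∧ L ≤ D ∧ 0 < a ∧ a ≤ C * L ∧
      a * L ≤ C * D ∧ a * a * L ≤ C * D ∧ exp (-a) ≤ tail S q (2 ^ D) ∧
      tail S q (2 ^ (4 * D)) ≤ tail S q (2 ^ D) ^ 2 / 2 := by
  obtain ⟨j₀, hcrit⟩ := hcrit
  set P := pc (cayley S) with hP
  have hpc0 : 0 < P := pc_pos hS hc
  have hθ1 : θ ≤ 1 := (hθn 0).trans (tail_le_one hpc0.le hpc.le 0)
  set a₀ := log (4 / θ) with ha₀
  have ha₀0 : 0 < a₀ := log_pos (by rw [lt_div_iff₀ hθ]; linarith)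
  have hexpa : exp (-a₀) = θ / 4 := by rw [exp_neg, ha₀, exp_log (by positivity), inv_div]
  set K : ℕ := ⌈6 / κ⌉₊ + 1 with hK
  have hKκ : 6 ≤ (K : ℝ) * κ := by
    rw [← div_le_iff₀ hκ, hK]
    push_cast
    linarith [Nat.le_ceil (6 / κ)]
  have E1 : ∀ᶠ x : ℝ in atTop, 1920 * (K : ℝ) / P * x ^ 2 * exp (-(1 : ℝ) * x ^ (1 : ℝ)) ≤ 1 :=
    eventually_pow_exp _ _ one_pos one_pos
  have E2 : ∀ᶠ x : ℝ in atTop, 8 / P * x ^ 0 * exp (-(5 : ℝ) * x ^ (1 : ℝ)) ≤ 1 :=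
    eventually_pow_exp _ _ (by norm_num) one_pos
  obtain ⟨L₀, hL₀⟩ := eventually_atTop.1 (tendsto_natCast_atTop_atTop.eventually
    ((E1.and E2).and (eventually_ge_atTop (max (max 4 a₀) (max κ (j₀ : ℝ))))))
  refine ⟨max (max 4 a₀) (a₀ * a₀), L₀, le_max_of_le_left (le_max_of_le_left (by norm_num)),
    fun L hL => ?_⟩
  obtain ⟨⟨e1, e2⟩, e3⟩ := hL₀ L hL
  rw [rpow_one] at e1 e2
  rw [pow_zero, mul_one] at e2
  have x4 : (4 : ℝ) ≤ L := (le_max_left _ _).trans ((le_max_left _ _).trans e3)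
  have xa : a₀ ≤ L := (le_max_right _ _).trans ((le_max_left _ _).trans e3)
  have xκ : κ ≤ L := (le_max_left _ _).trans ((le_max_right _ _).trans e3)
  have xj : j₀ ≤ L := by exact_mod_cast (le_max_right _ _).trans ((le_max_right _ _).trans e3)
  have hLn : 4 ≤ L := by exact_mod_cast x4
  set h := P * (2 : ℝ)⁻¹ ^ L / 4 with hh
  have hh0 : 0 < h := by positivity
  have hhP : h ≤ P / 4 := by
    rw [hh]
    have : (2 : ℝ)⁻¹ ^ L ≤ 1 := pow_le_one₀ (by norm_num) (by norm_num)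
    nlinarith
  set N := K * L with hN
  have hK0 : 0 < K := by omega
  have hN0 : (0 : ℝ) < N := by
    rw [hN]; push_cast; positivity
  set δ := h / (2 * N) with hδ
  have hδ0 : 0 < δ := by positivity
  have hNδ : (N : ℝ) * δ = h / 2 := by rw [hδ]; field_simp
  obtain ⟨qq, hqq⟩ : ∃ qq : ℕ → ℝ, ∀ i, qq i = P - h / 2 - i * δ := ⟨_, fun _ => rfl⟩
  have hqlow : ∀ i ≤ N, P - h ≤ qq i := fun i hi => by
    have h1 := mul_le_mul_of_nonneg_right (show (i : ℝ) ≤ N by exact_mod_cast hi) hδ0.le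
    rw [hqq]; linarith
  have hqtop : ∀ i, qq i ≤ P - h / 2 := fun i => by
    have := mul_nonneg (Nat.cast_nonneg (α := ℝ) i) hδ0.le
    rw [hqq]; linarith
  by_contra hfail
  have hnon : ∀ i ≤ N, ∀ k, (∀ j ≤ k, exp (-(4 * (L : ℝ))) ≤ tail S (qq i) (2 ^ (4 ^ j * L))) →
      tail S (qq i) (2 ^ (4 ^ k * L)) ^ 2 / 2 < tail S (qq i) (2 ^ (4 ^ (k + 1) * L)) := by
    intro i hi k
    induction k using Nat.strong_induction_on with
    | _ k ih =>
      intro hk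
      by_contra hg
      exact hfail (good_of_first hS hc hpc hθ hθn hLn hh (hqlow i hi) (hqtop i)
        (fun j hj => ih j hj fun l hl => hk l (by omega)) (hk k le_rfl) (not_lt.1 hg))
  have hzero : ∀ i ≤ N, exp (-(4 * (L : ℝ))) < tail S (qq i) (2 ^ (4 ^ 0 * L)) := fun i hi => by
    have h1 := tail_flat hS hc hpc hθ hθn hh (hqlow i hi) (by linarith [hqtop i] : qq i ≤ P)
    have h2 : exp (-(4 * (L : ℝ))) ≤ θ / 4 := by
      rw [← hexpa]; exact exp_le_exp.2 (by linarith)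
    rw [pow_zero, one_mul]
    linarith
  have hstep : ∀ i ≤ N, ∃ k ≤ N - i, tail S (qq i) (2 ^ (4 ^ k * L)) < exp (-(4 * (L : ℝ))) := by
    intro i
    induction i with
    | zero =>
      intro _
      refine ⟨N, le_rfl, ?_⟩
      rw [show qq 0 = P - h / 2 by simp [hqq]]
      exact no_long_flat hκ hpc0 hpc hcrit hKκ rfl hLn xj e2 hh
    | succ i ih =>
      intro hi
      obtain ⟨k, hk, hkt⟩ := ih (by omega)
      classical
      have hex : ∃ k, tail S (qq i) (2 ^ (4 ^ k * L)) < exp (-(4 * (L : ℝ))) := ⟨k, hkt⟩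
      have hspec := Nat.find_spec hex
      have hmin : ∀ j < Nat.find hex, exp (-(4 * (L : ℝ))) ≤ tail S (qq i) (2 ^ (4 ^ j * L)) :=
        fun j hj => not_lt.1 (Nat.find_min hex hj)
      have hk₁k : Nat.find hex ≤ k := Nat.find_min' hex hkt
      rcases Nat.eq_zero_or_pos (Nat.find hex) with h0 | hpos
      · rw [h0] at hspec
        exact absurd hspec (hzero i (by omega)).le.not_gt
      obtain ⟨k', hk'⟩ := Nat.exists_eq_succ_of_ne_zero hpos.ne'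
      have hsq := hnon i (by omega) k' fun j hj => hmin j (by omega)
      rw [hk', Nat.succ_eq_add_one] at hspec
      have hqi : qq (i + 1) = qq i - δ := by rw [hqq, hqq]; push_cast; ring
      have hdrop := drop_next hS (q := qq i) (s := 4 ^ k' * L) hpc0 hLn
        (Nat.le_mul_of_pos_left L (by positivity)) hK0 hN e1 hh hδ
        (by rw [← hqi]; linarith [hqlow (i + 1) hi]) (by linarith [hqtop i]) (hsq.trans hspec)
      rw [← hqi, show 4 * (4 ^ k' * L) = 4 ^ (k' + 1) * L by ring] at hdrop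
      have h10 : exp (-(10 * (L : ℝ))) < exp (-(4 * (L : ℝ))) := exp_lt_exp.2 (by linarith)
      rcases Nat.lt_or_ge (k' + 1) (N - i) with hlt | hge
      · exact ⟨k' + 1, by omega, hdrop.trans_lt h10⟩
      by_contra hall
      push Not at hall
      have h11 := hnon (i + 1) hi k' fun j hj => hall j (by omega)
      have h12 := pow_le_pow_left₀ (exp_pos _).le (hall k' (by omega)) 2
      have h13 : exp (-(10 * (L : ℝ))) < exp (-(4 * (L : ℝ))) ^ 2 / 2 := by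
        rw [← exp_nat_mul, show -(10 * (L : ℝ)) = ((2 : ℕ) : ℝ) * -(4 * L) + -(2 * L) by
          push_cast; ring, exp_add, lt_div_iff₀ two_pos, mul_assoc]
        refine mul_lt_of_lt_one_right (exp_pos _) ?_
        rw [exp_neg, inv_mul_lt_iff₀ (exp_pos _), mul_one]
        linarith [add_one_le_exp (2 * (L : ℝ))]
      linarith
  obtain ⟨k, hk, hkt⟩ := hstep N le_rfl
  obtain rfl : k = 0 := by omega
  exact absurd hkt (hzero N le_rfl).le.not_gt

end Vale.Agent.P151.Root
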